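import Vale.Agent.Lib.P195.Rig.Small

namespace Vale.Agent.Results.P195.AAA0_smallSummands

open CategoryTheory Abelian Vale.Agent.Lib.P195 Vale.Agent.Lib.P195.Rig

universe u v

/-- The Auslander-Reiten conjecture over a finite-dimensional algebra over a field: the
nonprojective direct summands of the syzygies of a module with (AR) need more and more generators,
with a uniform bound on the exceptions; hence the conjecture holds when infinitely many syzygies
are direct sums of modules generated by at most `B` elements, and for all modules over an algebra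
whose rigid modules are such direct sums. -/
theorem result {k : Type v} [Field k] {R : Type u} [Ring R] [Algebra k R] [FiniteDimensional k R]
    (B : ℕ) :
    (∃ N : ℕ, ∀ (r : Res R) (m : ℕ),
      (∀ i : ℕ, 1 ≤ i → i ≤ m + 1 → Subsingleton (Ext (r.N 0) (r.N 0) i)) →
      (∀ i : ℕ, 1 ≤ i → i ≤ m + 2 → Subsingleton (Ext (r.N 0) (ModuleCat.of R R) i)) →
      ∀ c : Fin (N + 1) → ℕ, Function.Injective c → (∀ z, c z ≤ m) →
        ¬ ∀ z, SmallSummand r B (c z)) ∧
    (∀ r : Res R,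
      (∀ i : ℕ, 1 ≤ i → Subsingleton (Ext (r.N 0) (r.N 0) i)) →
      (∀ i : ℕ, 1 ≤ i → Subsingleton (Ext (r.N 0) (ModuleCat.of R R) i)) →
      ∃ a₀ : ℕ, ∀ a, a₀ ≤ a → ¬ SmallSummand r B a) ∧
    (∀ r : Res R,
      (∀ i : ℕ, 1 ≤ i → Subsingleton (Ext (r.N 0) (r.N 0) i)) →
      (∀ i : ℕ, 1 ≤ i → Subsingleton (Ext (r.N 0) (ModuleCat.of R R) i)) →
      (∀ a₀ : ℕ, ∃ a, a₀ ≤ a ∧ ∃ (s : ℕ) (Y : Fin s → ModuleCat.{u} R),
        (∀ i, ∃ f : (Fin B → R) →ₗ[R] Y i, Function.Surjective f) ∧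
        Nonempty (r.N a ≃ₗ[R] ∀ i, Y i)) →
      Module.Projective R (r.N 0)) ∧
    ((∀ (X : ModuleCat.{u} R) [Module.Finite R X], Subsingleton (Ext X X 1) →
        ∃ (s : ℕ) (Y : Fin s → ModuleCat.{u} R),
          (∀ i, ∃ f : (Fin B → R) →ₗ[R] Y i, Function.Surjective f) ∧
          Nonempty (X ≃ₗ[R] ∀ i, Y i)) →
      ∀ r : Res R,
        (∀ i : ℕ, 1 ≤ i → Subsingleton (Ext (r.N 0) (r.N 0) i)) →
        (∀ i : ℕ, 1 ≤ i → Subsingleton (Ext (r.N 0) (ModuleCat.of R R) i)) →
        Module.Projective R (r.N 0)) := by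
  have hfin := finite_rigS k R B
  refine ⟨small_bound_core B hfin, fun r hM hR => small_eventually_core B hfin r hM hR,
    fun r hM hR hB => ar_of_summands (k := k) r hM hR B hB, fun h r hM hR => ?_⟩
  refine ar_of_summands (k := k) r hM hR B fun a₀ => ⟨a₀, le_rfl, ?_⟩
  haveI := r.finN a₀
  exact h (r.N a₀) (r.ext_left (r.N a₀) a₀ 0 (r.ext_right (a₀ + 1) (fun i h1 _ => hM i h1)
    (fun i h1 _ => hR i h1) a₀ (a₀ + (0 + 1)) (by omega) (by omega) (by omega)))

end Vale.Agent.Results.P195.AAA0_smallSummands
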