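import Vale.Agent.Results.P195.AAAA_union
import Vale.Agent.Results.P195.AAA0_smallSummands

namespace Vale.Agent.Results.P195.AAAAA_union

open CategoryTheory Abelian Vale.Agent.Lib.P195 Vale.Agent.Lib.P195.Rig

universe u v

/-- All classes for the Auslander-Reiten conjecture proved here: Artin algebras that are
`n`-Igusa-Todorov or of radical cube zero (finite range); finite-dimensional algebras over a field
and finite rings: the nonprojective direct summands of the syzygies of a module with (AR) grow,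
hence the conjecture for modules with infinitely many syzygies that are direct sums of modules
generated by at most `B` elements, with uniform forms over a field. -/
theorem result :
    (∀ (C : Type v) [CommRing C] [IsArtinianRing C] (R : Type u) [Ring R] [Algebra C R]
        [Module.Finite C R] (M : ModuleCat.{u} R) [Module.Finite R M],
      (∀ (n : ℕ) (V : ModuleCat.{u} R) [Module.Finite R V],
        IsIgusaTodorov R n V →
        (∀ i : ℕ, 1 ≤ i → Subsingleton (Ext M M i)) →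
        (∀ i : ℕ, 1 ≤ i → Subsingleton (Ext M (ModuleCat.of R R) i)) →
        Module.Projective R M) ∧
      (Ring.jacobson R ^ 3 = ⊥ →
        (∀ i : ℕ, 1 ≤ i → i ≤ 2 * (Module.length R (R ⧸ Ring.jacobson R)).toNat + 1 →
          Subsingleton (Ext M M i)) →
        (∀ i : ℕ, 1 ≤ i → i ≤ 2 * (Module.length R (R ⧸ Ring.jacobson R)).toNat + 2 →
          Subsingleton (Ext M (ModuleCat.of R R) i)) →
        Module.Projective R M)) ∧
    (∀ (k : Type v) [Field k] (R : Type u) [Ring R] [Algebra k R] [FiniteDimensional k R] (B : ℕ),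
      (∃ N : ℕ, ∀ (r : Res R) (m : ℕ),
        (∀ i : ℕ, 1 ≤ i → i ≤ m + 1 → Subsingleton (Ext (r.N 0) (r.N 0) i)) →
        (∀ i : ℕ, 1 ≤ i → i ≤ m + 2 → Subsingleton (Ext (r.N 0) (ModuleCat.of R R) i)) →
        ∀ c : Fin (N + 1) → ℕ, Function.Injective c → (∀ z, c z ≤ m) →
          ¬ ∀ z, SmallSummand r B (c z)) ∧
      (∀ r : Res R,
        (∀ i : ℕ, 1 ≤ i → Subsingleton (Ext (r.N 0) (r.N 0) i)) →
        (∀ i : ℕ, 1 ≤ i → Subsingleton (Ext (r.N 0) (ModuleCat.of R R) i)) →
        ∃ a₀ : ℕ, ∀ a, a₀ ≤ a → ¬ SmallSummand r B a) ∧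
      (∀ r : Res R,
        (∀ i : ℕ, 1 ≤ i → Subsingleton (Ext (r.N 0) (r.N 0) i)) →
        (∀ i : ℕ, 1 ≤ i → Subsingleton (Ext (r.N 0) (ModuleCat.of R R) i)) →
        (∀ a₀ : ℕ, ∃ a, a₀ ≤ a ∧ ∃ (s : ℕ) (Y : Fin s → ModuleCat.{u} R),
          (∀ i, ∃ f : (Fin B → R) →ₗ[R] Y i, Function.Surjective f) ∧
          Nonempty (r.N a ≃ₗ[R] ∀ i, Y i)) →
        Module.Projective R (r.N 0)) ∧
      ((∀ (X : ModuleCat.{u} R) [Module.Finite R X], Subsingleton (Ext X X 1) →
          ∃ (s : ℕ) (Y : Fin s → ModuleCat.{u} R),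
            (∀ i, ∃ f : (Fin B → R) →ₗ[R] Y i, Function.Surjective f) ∧
            Nonempty (X ≃ₗ[R] ∀ i, Y i)) →
        ∀ r : Res R,
          (∀ i : ℕ, 1 ≤ i → Subsingleton (Ext (r.N 0) (r.N 0) i)) →
          (∀ i : ℕ, 1 ≤ i → Subsingleton (Ext (r.N 0) (ModuleCat.of R R) i)) →
          Module.Projective R (r.N 0))) ∧
    (∀ (R : Type u) [Ring R] [Finite R] (B : ℕ) (r : Res R),
      (∀ i : ℕ, 1 ≤ i → Subsingleton (Ext (r.N 0) (r.N 0) i)) →
      (∀ i : ℕ, 1 ≤ i → Subsingleton (Ext (r.N 0) (ModuleCat.of R R) i)) →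
      (∃ a₀ : ℕ, ∀ a, a₀ ≤ a → ¬ SmallSummand r B a) ∧
      ((∀ a₀ : ℕ, ∃ a, a₀ ≤ a ∧ ∃ (s : ℕ) (Y : Fin s → ModuleCat.{u} R),
          (∀ i, ∃ f : (Fin B → R) →ₗ[R] Y i, Function.Surjective f) ∧
          Nonempty (r.N a ≃ₗ[R] ∀ i, Y i)) →
        Module.Projective R (r.N 0))) := by
  refine ⟨Vale.Agent.Results.P195.AAAA_union.result.1,
    fun k _ R _ _ _ B => Vale.Agent.Results.P195.AAA0_smallSummands.result (k := k) (R := R) B,
    fun R _ _ B r hM hR => ?_⟩
  have hsub : Finite (Submodule R (Fin B → R)) :=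
    Finite.of_injective (fun K => (K : Set (Fin B → R))) SetLike.coe_injective
  have h2 : Finite (RigQ R B) := Subtype.finite
  have h3 : Finite (Quotient (rigS R B)) := Quotient.finite _
  exact ⟨small_eventually_core B h3 r hM hR, fun hB => ar_of_summands_finite r hM hR B hB⟩

end Vale.Agent.Results.P195.AAAAA_union
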