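import Vale.Agent.Results.P195.AAA_union
import Vale.Agent.Lib.P195.Rig.ARSum

namespace Vale.Agent.Results.P195.AAAA_all

open CategoryTheory Abelian

universe u v w

/-- For an Artin algebra `R`: minimal resolutions exist; the conjecture for `n`-Igusa-Todorov
algebras; the finite range form for radical cube zero; a syzygy that is a finite direct sum of direct
summands of earlier syzygies forces projectivity; and, when `R` is finite-dimensional over a field,
the conjecture for modules with infinitely many syzygies that are finite direct sums of modules with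
at most `B` generators, with a uniform finite range form. -/
theorem result {C : Type v} [CommRing C] [IsArtinianRing C] {R : Type u} [Ring R] [Algebra C R]
    [Module.Finite C R] :
    (∀ (M : ModuleCat.{u} R) [Module.Finite R M], ∃ r : Vale.Agent.Lib.P195.Res R, r.N 0 = M) ∧
    (∀ (M : ModuleCat.{u} R) [Module.Finite R M] (n : ℕ) (V : ModuleCat.{u} R) [Module.Finite R V],
      Vale.Agent.Lib.P195.IsIgusaTodorov R n V →
      (∀ i : ℕ, 1 ≤ i → Subsingleton (Ext M M i)) →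
      (∀ i : ℕ, 1 ≤ i → Subsingleton (Ext M (ModuleCat.of R R) i)) →
      Module.Projective R M) ∧
    (∀ (M : ModuleCat.{u} R) [Module.Finite R M], Ring.jacobson R ^ 3 = ⊥ →
      (∀ i : ℕ, 1 ≤ i → i ≤ 2 * (Module.length R (R ⧸ Ring.jacobson R)).toNat + 1 →
        Subsingleton (Ext M M i)) →
      (∀ i : ℕ, 1 ≤ i → i ≤ 2 * (Module.length R (R ⧸ Ring.jacobson R)).toNat + 2 →
        Subsingleton (Ext M (ModuleCat.of R R) i)) →
      Module.Projective R M) ∧
    (∀ (r : Vale.Agent.Lib.P195.Res R) (m : ℕ),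
      (∀ i : ℕ, 1 ≤ i → i ≤ m → Subsingleton (Ext (r.N 0) (r.N 0) i)) →
      (∀ i : ℕ, 1 ≤ i → i ≤ m + 1 → Subsingleton (Ext (r.N 0) (ModuleCat.of R R) i)) →
      ∀ (b n : ℕ), 1 ≤ b → b ≤ m → ∀ (X : Fin n → ModuleCat.{u} R),
        Nonempty (r.N b ≃ₗ[R] (∀ l, X l)) →
        (∀ l, ∃ a, a < b ∧ ∃ (i : X l ⟶ r.N a) (p : r.N a ⟶ X l), i ≫ p = 𝟙 (X l)) →
        Module.Projective R (r.N 0)) ∧
    (∀ (k : Type w) [Field k] [Algebra k R] [FiniteDimensional k R] (B : ℕ),
      (∀ r : Vale.Agent.Lib.P195.Res R,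
        (∀ i : ℕ, 1 ≤ i → Subsingleton (Ext (r.N 0) (r.N 0) i)) →
        (∀ i : ℕ, 1 ≤ i → Subsingleton (Ext (r.N 0) (ModuleCat.of R R) i)) →
        (∀ a₀, ∃ a, a₀ ≤ a ∧ Vale.Agent.Lib.P195.Rig.IsBoundedSum B (r.N a)) →
        Module.Projective R (r.N 0)) ∧
      (∃ K : ℕ, ∀ (r : Vale.Agent.Lib.P195.Res R) (m : ℕ) (A : Finset ℕ), K < A.card →
        (∀ a ∈ A, a < m ∧ Vale.Agent.Lib.P195.Rig.IsBoundedSum B (r.N a)) →
        (∀ i : ℕ, 1 ≤ i → i ≤ m → Subsingleton (Ext (r.N 0) (r.N 0) i)) →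
        (∀ i : ℕ, 1 ≤ i → i ≤ m + 1 → Subsingleton (Ext (r.N 0) (ModuleCat.of R R) i)) →
        Module.Projective R (r.N 0))) :=
  ⟨fun M _ => Vale.Agent.Lib.P195.exists_res C M,
    fun M _ n V _ hV hM hR => (Vale.Agent.Results.P195.AAA_union.result (C := C) M).1 n V hV hM hR,
    fun M _ hJ hM hR => (Vale.Agent.Results.P195.AAA_union.result (C := C) M).2 hJ hM hR,
    fun r m hM hR _ _ hb hbm X e hsum =>
      let ⟨e'⟩ := e
      Vale.Agent.Lib.P195.Rig.proj_of_summands r m hM hR hb hbm X e' hsum,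
    fun k _ _ _ B =>
      ⟨fun r hM hR hB => Vale.Agent.Lib.P195.Rig.ar_of_bounded_sum (k := k) r hM hR B hB,
        Vale.Agent.Lib.P195.Rig.ar_range k R B⟩⟩

end Vale.Agent.Results.P195.AAAA_all
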