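import Vale.Agent.Results.P195.B_finiteRange
import Vale.Agent.Results.P195.C_igusaTodorov
import Vale.Agent.Lib.P195.Rig.Uniform

namespace Vale.Agent.Results.P195.AAAA_union

open CategoryTheory Abelian

universe u v

/-- All classes for the Auslander-Reiten conjecture proved here: Artin algebras that are
`n`-Igusa-Todorov or of radical cube zero (finite range), finite-dimensional algebras over a field
and finite rings for modules with infinitely many syzygies generated by at most `B` elements, with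
a uniform finite range form over a field. -/
theorem result :
    (∀ (C : Type v) [CommRing C] [IsArtinianRing C] (R : Type u) [Ring R] [Algebra C R]
        [Module.Finite C R] (M : ModuleCat.{u} R) [Module.Finite R M],
      (∀ (n : ℕ) (V : ModuleCat.{u} R) [Module.Finite R V],
        Vale.Agent.Lib.P195.IsIgusaTodorov R n V →
        (∀ i : ℕ, 1 ≤ i → Subsingleton (Ext M M i)) →
        (∀ i : ℕ, 1 ≤ i → Subsingleton (Ext M (ModuleCat.of R R) i)) →
        Module.Projective R M) ∧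
      (Ring.jacobson R ^ 3 = ⊥ →
        (∀ i : ℕ, 1 ≤ i → i ≤ 2 * (Module.length R (R ⧸ Ring.jacobson R)).toNat + 1 →
          Subsingleton (Ext M M i)) →
        (∀ i : ℕ, 1 ≤ i → i ≤ 2 * (Module.length R (R ⧸ Ring.jacobson R)).toNat + 2 →
          Subsingleton (Ext M (ModuleCat.of R R) i)) →
        Module.Projective R M)) ∧
    (∀ (k : Type v) [Field k] (R : Type u) [Ring R] [Algebra k R] [FiniteDimensional k R] (B : ℕ),
      (∀ r : Vale.Agent.Lib.P195.Res R,
        (∀ i : ℕ, 1 ≤ i → Subsingleton (Ext (r.N 0) (r.N 0) i)) →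
        (∀ i : ℕ, 1 ≤ i → Subsingleton (Ext (r.N 0) (ModuleCat.of R R) i)) →
        (∀ a₀ : ℕ, ∃ a, a₀ ≤ a ∧ ∃ f : (Fin B → R) →ₗ[R] r.N a, Function.Surjective f) →
        Module.Projective R (r.N 0)) ∧
      (∃ N : ℕ, ∀ (r : Vale.Agent.Lib.P195.Res R) (m : ℕ),
        (∀ i : ℕ, 1 ≤ i → i ≤ m + 1 → Subsingleton (Ext (r.N 0) (r.N 0) i)) →
        (∀ i : ℕ, 1 ≤ i → i ≤ m + 2 → Subsingleton (Ext (r.N 0) (ModuleCat.of R R) i)) →
        ∀ c : Fin (N + 1) → ℕ, Function.Injective c → (∀ z, c z ≤ m) →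
        (∀ z, ∃ f : (Fin B → R) →ₗ[R] r.N (c z), Function.Surjective f) →
        Module.Projective R (r.N 0))) ∧
    (∀ (R : Type u) [Ring R] [Finite R] (B : ℕ) (r : Vale.Agent.Lib.P195.Res R),
      (∀ i : ℕ, 1 ≤ i → Subsingleton (Ext (r.N 0) (r.N 0) i)) →
      (∀ i : ℕ, 1 ≤ i → Subsingleton (Ext (r.N 0) (ModuleCat.of R R) i)) →
      (∀ a₀ : ℕ, ∃ a, a₀ ≤ a ∧ ∃ f : (Fin B → R) →ₗ[R] r.N a, Function.Surjective f) →
      Module.Projective R (r.N 0)) :=
  ⟨fun C _ _ R _ _ _ M _ =>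
      ⟨fun n V _ hV hM hR =>
        Vale.Agent.Results.P195.C_igusaTodorov.result (C := C) n V hV M hM hR,
      fun hJ hM hR => Vale.Agent.Results.P195.B_finiteRange.result (C := C) hJ M hM hR⟩,
    fun k _ R _ _ _ B =>
      ⟨fun r hM hR hB => Vale.Agent.Lib.P195.Rig.ar_of_bounded (k := k) r hM hR B hB,
        Vale.Agent.Lib.P195.Rig.ar_uniform k R B⟩,
    fun _ _ _ B r hM hR hB => Vale.Agent.Lib.P195.Rig.ar_of_bounded_finite r hM hR B hB⟩

end Vale.Agent.Results.P195.AAAA_union
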