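import Vale.Agent.Results.P195.B_finiteRange
import Vale.Agent.Results.P195.C_igusaTodorov

namespace Vale.Agent.Results.P195.AAA_union

open CategoryTheory Abelian

universe u v

/-- For an Artin algebra `R`: the conjecture for `n`-Igusa-Todorov algebras, and the finite range
form for radical cube zero. -/
theorem result {C : Type v} [CommRing C] [IsArtinianRing C] {R : Type u} [Ring R] [Algebra C R]
    [Module.Finite C R] (M : ModuleCat.{u} R) [Module.Finite R M] :
    (∀ (n : ℕ) (V : ModuleCat.{u} R) [Module.Finite R V],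
      Vale.Agent.Lib.P195.IsIgusaTodorov R n V →
      (∀ i : ℕ, 1 ≤ i → Subsingleton (Ext M M i)) →
      (∀ i : ℕ, 1 ≤ i → Subsingleton (Ext M (ModuleCat.of R R) i)) →
      Module.Projective R M) ∧
    (Ring.jacobson R ^ 3 = ⊥ →
      (∀ i : ℕ, 1 ≤ i → i ≤ 2 * (Module.length R (R ⧸ Ring.jacobson R)).toNat + 1 →
        Subsingleton (Ext M M i)) →
      (∀ i : ℕ, 1 ≤ i → i ≤ 2 * (Module.length R (R ⧸ Ring.jacobson R)).toNat + 2 →
        Subsingleton (Ext M (ModuleCat.of R R) i)) →
      Module.Projective R M) :=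
  ⟨fun n V _ hV hM hR =>
      Vale.Agent.Results.P195.C_igusaTodorov.result (C := C) n V hV M hM hR,
    fun hJ hM hR => Vale.Agent.Results.P195.B_finiteRange.result (C := C) hJ M hM hR⟩

end Vale.Agent.Results.P195.AAA_union
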