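import Vale.Agent.Lib.P195.Rig.AR

namespace Vale.Agent.Results.P195.AA_boundedBetti

open CategoryTheory Abelian

universe u v

/-- The Auslander-Reiten conjecture over any finite-dimensional algebra over a field, for modules
whose minimal resolution has infinitely many syzygies generated by at most `B` elements (for
instance bounded Betti numbers). So the syzygies of a counterexample need more and more generators.
-/
theorem result {k : Type v} [Field k] {R : Type u} [Ring R] [Algebra k R] [FiniteDimensional k R]
    (r : Vale.Agent.Lib.P195.Res R)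
    (hM : ∀ i : ℕ, 1 ≤ i → Subsingleton (Ext (r.N 0) (r.N 0) i))
    (hR : ∀ i : ℕ, 1 ≤ i → Subsingleton (Ext (r.N 0) (ModuleCat.of R R) i))
    (B : ℕ) (hB : ∀ a₀ : ℕ, ∃ a, a₀ ≤ a ∧ ∃ f : (Fin B → R) →ₗ[R] r.N a, Function.Surjective f) :
    Module.Projective R (r.N 0) :=
  Vale.Agent.Lib.P195.Rig.ar_of_bounded (k := k) r hM hR B hB

end Vale.Agent.Results.P195.AA_boundedBetti
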